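import Vale.Agent.P139.H201.Wiener2

/-!
# Products, conjugates, scalar multiples and derivative bounds of Wiener functions
-/

open MeasureTheory Real FourierTransform Filter Topology Metric Convolution
open scoped ContDiff ComplexConjugate

namespace Vale.Agent.P139.H744

open Vale.Agent.P139.H201

variable {E : Type*} [NormedAddCommGroup E] [InnerProductSpace ℝ E] [FiniteDimensional ℝ E]
  [MeasurableSpace E] [BorelSpace E]

omit [InnerProductSpace ℝ E] [FiniteDimensional ℝ E] [MeasurableSpace E] [BorelSpace E] in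
lemma weight_le (s : ℕ) (x t : E) :
    1 + ‖x‖ ^ s ≤ 2 ^ s * ((1 + ‖t‖ ^ s) * (1 + ‖x - t‖ ^ s)) := by
  have h1 : ‖x‖ ≤ ‖t‖ + ‖x - t‖ := by
    calc ‖x‖ = ‖t + (x - t)‖ := by congr 1; abel
      _ ≤ _ := norm_add_le _ _
  have h2 : ‖x‖ ^ s ≤ 2 ^ s * (‖t‖ ^ s + ‖x - t‖ ^ s) := by
    rcases le_total ‖t‖ ‖x - t‖ with h | h
    · calc ‖x‖ ^ s ≤ (2 * ‖x - t‖) ^ s := by gcongr; linarith
        _ = 2 ^ s * ‖x - t‖ ^ s := mul_pow _ _ _
        _ ≤ 2 ^ s * (‖t‖ ^ s + ‖x - t‖ ^ s) := by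
          gcongr
          have : 0 ≤ ‖t‖ ^ s := by positivity
          linarith
    · calc ‖x‖ ^ s ≤ (2 * ‖t‖) ^ s := by gcongr; linarith
        _ = 2 ^ s * ‖t‖ ^ s := mul_pow _ _ _
        _ ≤ 2 ^ s * (‖t‖ ^ s + ‖x - t‖ ^ s) := by
          gcongr
          have : 0 ≤ ‖x - t‖ ^ s := by positivity
          linarith
  have h3 : (1 : ℝ) ≤ 2 ^ s := one_le_pow₀ (by norm_num)
  have h4 : 0 ≤ ‖t‖ ^ s := by positivity
  have h5 : 0 ≤ ‖x - t‖ ^ s := by positivity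
  have h6 : 0 ≤ ‖t‖ ^ s * ‖x - t‖ ^ s := by positivity
  calc 1 + ‖x‖ ^ s ≤ 2 ^ s * 1 + 2 ^ s * (‖t‖ ^ s + ‖x - t‖ ^ s) := by linarith
    _ = 2 ^ s * (1 + (‖t‖ ^ s + ‖x - t‖ ^ s)) := by ring
    _ ≤ 2 ^ s * ((1 + ‖t‖ ^ s) * (1 + ‖x - t‖ ^ s)) := by
      gcongr
      nlinarith

/-- Product of two Wiener functions. -/
theorem WienerRep.mul {s : ℕ} {f g : E → ℂ} {A B : ℝ} (hf : WienerRep s f A)
    (hg : WienerRep s g B) : WienerRep s (fun x => f x * g x) (2 ^ s * (A * B)) := by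
  obtain ⟨φ, h1, h2, h3, h4⟩ := hf
  obtain ⟨ψ, k1, k2, k3, k4⟩ := hg
  set φw : E → ℝ := fun ξ => (1 + ‖ξ‖ ^ s) * ‖φ ξ‖ with hφw
  set ψw : E → ℝ := fun ξ => (1 + ‖ξ‖ ^ s) * ‖ψ ξ‖ with hψw
  have hφw0 : ∀ ξ, 0 ≤ φw ξ := fun ξ => by positivity
  have hψw0 : ∀ ξ, 0 ≤ ψw ξ := fun ξ => by positivity
  have hconv : Integrable (φ ⋆[ContinuousLinearMap.mul ℂ ℂ] ψ) :=
    Integrable.integrable_convolution (ContinuousLinearMap.mul ℂ ℂ) h1 k1
  have hconvw : Integrable (φw ⋆[ContinuousLinearMap.mul ℝ ℝ] ψw) :=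
    Integrable.integrable_convolution (ContinuousLinearMap.mul ℝ ℝ) h2 k2
  have hae : ∀ᵐ x, (1 + ‖x‖ ^ s) * ‖(φ ⋆[ContinuousLinearMap.mul ℂ ℂ] ψ) x‖ ≤
      2 ^ s * (φw ⋆[ContinuousLinearMap.mul ℝ ℝ] ψw) x := by
    filter_upwards [h2.ae_convolution_exists (ContinuousLinearMap.mul ℝ ℝ) k2] with x hx
    have hx' : Integrable (fun t => φw t * ψw (x - t)) := hx
    have e1 : ‖(φ ⋆[ContinuousLinearMap.mul ℂ ℂ] ψ) x‖ ≤ ∫ t, ‖φ t‖ * ‖ψ (x - t)‖ := by
      calc ‖(φ ⋆[ContinuousLinearMap.mul ℂ ℂ] ψ) x‖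
          = ‖∫ t, φ t * ψ (x - t)‖ := rfl
        _ ≤ ∫ t, ‖φ t * ψ (x - t)‖ := norm_integral_le_integral_norm _
        _ = ∫ t, ‖φ t‖ * ‖ψ (x - t)‖ := by simp_rw [norm_mul]
    calc (1 + ‖x‖ ^ s) * ‖(φ ⋆[ContinuousLinearMap.mul ℂ ℂ] ψ) x‖
        ≤ (1 + ‖x‖ ^ s) * ∫ t, ‖φ t‖ * ‖ψ (x - t)‖ := by gcongr
      _ = ∫ t, (1 + ‖x‖ ^ s) * (‖φ t‖ * ‖ψ (x - t)‖) := by rw [integral_const_mul]
      _ ≤ ∫ t, 2 ^ s * (φw t * ψw (x - t)) := by
          apply integral_mono_of_nonneg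
          · exact Eventually.of_forall fun t => by positivity
          · exact hx'.const_mul _
          · refine Eventually.of_forall fun t => ?_
            show (1 + ‖x‖ ^ s) * (‖φ t‖ * ‖ψ (x - t)‖) ≤
              2 ^ s * (((1 + ‖t‖ ^ s) * ‖φ t‖) * ((1 + ‖x - t‖ ^ s) * ‖ψ (x - t)‖))
            calc (1 + ‖x‖ ^ s) * (‖φ t‖ * ‖ψ (x - t)‖)
                ≤ (2 ^ s * ((1 + ‖t‖ ^ s) * (1 + ‖x - t‖ ^ s))) * (‖φ t‖ * ‖ψ (x - t)‖) := by
                  gcongr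
                  exact weight_le s x t
              _ = _ := by ring
      _ = 2 ^ s * (φw ⋆[ContinuousLinearMap.mul ℝ ℝ] ψw) x := by
          rw [integral_const_mul]
          rfl
  have hint : Integrable (fun x => (1 + ‖x‖ ^ s) *
      ‖(φ ⋆[ContinuousLinearMap.mul ℂ ℂ] ψ) x‖) := by
    apply (hconvw.const_mul (2 ^ s)).mono'
    · apply AEStronglyMeasurable.mul
      · exact (by fun_prop : Continuous fun ξ : E => 1 + ‖ξ‖ ^ s).aestronglyMeasurable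
      · exact hconv.1.norm
    · filter_upwards [hae] with x hx
      rw [Real.norm_of_nonneg (by positivity)]
      exact hx
  refine ⟨φ ⋆[ContinuousLinearMap.mul ℂ ℂ] ψ, hconv, hint, ?_, ?_⟩
  · intro x
    show f x * g x = _
    rw [h3 x, k3 x, fourierInv_eq_fourier_neg, fourierInv_eq_fourier_neg,
      fourierInv_eq_fourier_neg, Real.fourier_mul_convolution_eq h1 k1]
  · calc ∫ x, (1 + ‖x‖ ^ s) * ‖(φ ⋆[ContinuousLinearMap.mul ℂ ℂ] ψ) x‖
        ≤ ∫ x, 2 ^ s * (φw ⋆[ContinuousLinearMap.mul ℝ ℝ] ψw) x :=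
          integral_mono_ae hint (hconvw.const_mul _) hae
      _ = 2 ^ s * ((∫ x, φw x) * ∫ x, ψw x) := by
          rw [integral_const_mul, integral_convolution (ContinuousLinearMap.mul ℝ ℝ) h2 k2]
          rfl
      _ ≤ 2 ^ s * (A * B) := by
          have hA : 0 ≤ ∫ x, φw x := integral_nonneg hφw0
          have hB : 0 ≤ ∫ x, ψw x := integral_nonneg hψw0
          gcongr
          exact hA.trans h4

/-- Scalar multiple of a Wiener function. -/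
theorem WienerRep.const_mul {s : ℕ} {f : E → ℂ} {A : ℝ} (hf : WienerRep s f A) (c : ℂ) :
    WienerRep s (fun x => c * f x) (‖c‖ * A) := by
  obtain ⟨φ, h1, h2, h3, h4⟩ := hf
  refine ⟨fun ξ => c * φ ξ, h1.const_mul c, ?_, ?_, ?_⟩
  · have : (fun ξ : E => (1 + ‖ξ‖ ^ s) * ‖c * φ ξ‖) =
        fun ξ => ‖c‖ * ((1 + ‖ξ‖ ^ s) * ‖φ ξ‖) := by
      ext ξ; rw [norm_mul]; ring
    rw [this]
    exact h2.const_mul _
  · intro x
    show c * f x = _
    rw [h3 x, Real.fourierInv_eq, Real.fourierInv_eq, ← integral_const_mul]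
    congr 1
    ext ξ
    simp only [Circle.smul_def, smul_eq_mul]
    ring
  · have : (fun ξ : E => (1 + ‖ξ‖ ^ s) * ‖c * φ ξ‖) =
        fun ξ => ‖c‖ * ((1 + ‖ξ‖ ^ s) * ‖φ ξ‖) := by
      ext ξ; rw [norm_mul]; ring
    rw [this, integral_const_mul]
    gcongr

/-- Complex conjugate of a Wiener function. -/
theorem WienerRep.conj {s : ℕ} {f : E → ℂ} {A : ℝ} (hf : WienerRep s f A) :
    WienerRep s (fun x => conj (f x)) A := by
  obtain ⟨φ, h1, h2, h3, h4⟩ := hf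
  have hmp : MeasurePreserving (fun ξ : E => -ξ) volume volume :=
    Measure.measurePreserving_neg volume
  have hc1 : Integrable (fun ξ => conj (φ (-ξ))) := by
    have : Integrable (fun ξ => φ (-ξ)) := h1.comp_neg
    exact (Complex.conjLIE.toContinuousLinearEquiv.toContinuousLinearMap.integrable_comp this)
  refine ⟨fun ξ => conj (φ (-ξ)), hc1, ?_, ?_, ?_⟩
  · have : (fun ξ : E => (1 + ‖ξ‖ ^ s) * ‖conj (φ (-ξ))‖) =
        fun ξ => (fun η : E => (1 + ‖η‖ ^ s) * ‖φ η‖) (-ξ) := by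
      ext ξ
      simp only [RCLike.norm_conj, norm_neg]
    rw [this]
    exact h2.comp_neg
  · intro x
    show conj (f x) = _
    rw [h3 x, Real.fourierInv_eq, Real.fourierInv_eq, ← integral_conj,
      ← integral_neg_eq_self (fun ξ : E => Real.fourierChar (inner ℝ ξ x) • conj (φ (-ξ)))]
    congr 1
    ext ξ
    simp only [Circle.smul_def, smul_eq_mul, neg_neg, inner_neg_left, map_mul,
      Real.fourierChar_apply, ← Complex.exp_conj]
    congr 2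
    simp only [Complex.conj_I, Complex.conj_ofReal]
    push_cast
    ring
  · have : (fun ξ : E => (1 + ‖ξ‖ ^ s) * ‖conj (φ (-ξ))‖) =
        fun ξ => (fun η : E => (1 + ‖η‖ ^ s) * ‖φ η‖) (-ξ) := by
      ext ξ
      simp only [RCLike.norm_conj, norm_neg]
    rw [this, integral_neg_eq_self (fun η : E => (1 + ‖η‖ ^ s) * ‖φ η‖)]
    exact h4

/-- A Wiener function is bounded by its norm. -/
theorem WienerRep.norm_le {s : ℕ} {f : E → ℂ} {A : ℝ} (hf : WienerRep s f A) (x : E) :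
    ‖f x‖ ≤ A := by
  obtain ⟨φ, h1, h2, h3, h4⟩ := hf
  rw [h3 x, Real.fourierInv_eq]
  calc ‖∫ ξ, Real.fourierChar (inner ℝ ξ x) • φ ξ‖
      ≤ ∫ ξ, ‖Real.fourierChar (inner ℝ ξ x) • φ ξ‖ := norm_integral_le_integral_norm _
    _ = ∫ ξ, ‖φ ξ‖ := by simp only [Circle.norm_smul]
    _ ≤ ∫ ξ, (1 + ‖ξ‖ ^ s) * ‖φ ξ‖ := by
        apply integral_mono h1.norm h2
        intro ξ
        have : 0 ≤ ‖ξ‖ ^ s * ‖φ ξ‖ := by positivity
        show ‖φ ξ‖ ≤ (1 + ‖ξ‖ ^ s) * ‖φ ξ‖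
        linarith [add_mul 1 (‖ξ‖ ^ s) ‖φ ξ‖, one_mul ‖φ ξ‖]
    _ ≤ A := h4

/-- Injectivity of the inverse Fourier transform on integrable functions. -/
theorem ae_eq_of_fourierInv_eq {φ ψ : E → ℂ} (h1 : Integrable φ) (k1 : Integrable ψ)
    (h : ∀ x, 𝓕⁻ φ x = 𝓕⁻ ψ x) : φ =ᵐ[volume] ψ := by
  have hF : ∀ x, 𝓕 φ x = 𝓕 ψ x := by
    intro x
    have := h (-x)
    rwa [Real.fourierInv_eq_fourier_neg, Real.fourierInv_eq_fourier_neg, neg_neg] at this
  apply ae_eq_of_integral_contDiff_smul_eq h1.locallyIntegrable k1.locallyIntegrable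
  intro g hg hgs
  have hgC : ContDiff ℝ ∞ (fun x => (g x : ℂ)) := Complex.ofRealCLM.contDiff.comp hg
  have hgsC : HasCompactSupport (fun x => (g x : ℂ)) := hgs.comp_left (g := Complex.ofReal)
    Complex.ofReal_zero
  let G : SchwartzMap E ℂ := hgsC.toSchwartzMap hgC
  have key : ∀ θ : E → ℂ, Integrable θ → ∫ x, g x • θ x = ∫ ξ, 𝓕 θ ξ * (𝓕⁻ G) ξ := by
    intro θ hθ
    have h2 := VectorFourier.integral_fourierIntegral_smul_eq_flip (L := innerₗ E)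
      (μ := volume) (ν := volume) (f := θ) (g := (𝓕⁻ G : SchwartzMap E ℂ))
      Real.continuous_fourierChar continuous_inner hθ (𝓕⁻ G).integrable
    have h3 : ∀ x, VectorFourier.fourierIntegral Real.fourierChar volume (innerₗ E).flip
        (𝓕⁻ G : SchwartzMap E ℂ) x = g x := by
      intro x
      have h4 : VectorFourier.fourierIntegral Real.fourierChar volume (innerₗ E).flip
        (𝓕⁻ G : SchwartzMap E ℂ) x = 𝓕 ((𝓕⁻ G : SchwartzMap E ℂ) : E → ℂ) x := by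
        rw [Real.fourier_eq]
        simp only [VectorFourier.fourierIntegral, flip_innerₗ, innerₗ_apply_apply]
      rw [h4, ← SchwartzMap.fourier_coe]
      simp [G]
    simp only [h3] at h2
    calc ∫ x, g x • θ x = ∫ x, θ x • (g x : ℂ) := by
          congr 1; ext x; simp [mul_comm]
      _ = _ := h2.symm
      _ = _ := rfl
  rw [key φ h1, key ψ k1]
  simp_rw [hF]

/-- Sums of Wiener functions. -/
theorem WienerRep.add' {s : ℕ} {f g : E → ℂ} {A B : ℝ} (hf : WienerRep s f A)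
    (hg : WienerRep s g B) : WienerRep s (fun x => f x + g x) (A + B) := by
  obtain ⟨φ, h1, h2, h3, h4⟩ := hf
  obtain ⟨ψ, k1, k2, k3, k4⟩ := hg
  have hle : ∀ ξ : E, (1 + ‖ξ‖ ^ s) * ‖φ ξ + ψ ξ‖ ≤
      (1 + ‖ξ‖ ^ s) * ‖φ ξ‖ + (1 + ‖ξ‖ ^ s) * ‖ψ ξ‖ := by
    intro ξ
    rw [← mul_add]
    gcongr
    exact norm_add_le _ _
  have hint : Integrable (fun ξ : E => (1 + ‖ξ‖ ^ s) * ‖φ ξ + ψ ξ‖) := by
    apply (h2.add k2).mono'
    · apply AEStronglyMeasurable.mul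
      · exact (by fun_prop : Continuous fun ξ : E => 1 + ‖ξ‖ ^ s).aestronglyMeasurable
      · exact (h1.add k1).1.norm
    · filter_upwards with ξ
      rw [Real.norm_of_nonneg (by positivity)]
      exact hle ξ
  refine ⟨fun ξ => φ ξ + ψ ξ, h1.add k1, hint, ?_, ?_⟩
  · intro x
    show f x + g x = _
    rw [h3 x, k3 x, Real.fourierInv_eq, Real.fourierInv_eq, Real.fourierInv_eq, ← integral_add]
    · congr 1; ext ξ; rw [smul_add]
    · exact (Real.fourierIntegral_convergent_iff (-x)).2 h1 |>.congr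
        (Eventually.of_forall fun ξ => by simp)
    · exact (Real.fourierIntegral_convergent_iff (-x)).2 k1 |>.congr
        (Eventually.of_forall fun ξ => by simp)
  · calc ∫ ξ, (1 + ‖ξ‖ ^ s) * ‖φ ξ + ψ ξ‖
        ≤ ∫ ξ, ((1 + ‖ξ‖ ^ s) * ‖φ ξ‖ + (1 + ‖ξ‖ ^ s) * ‖ψ ξ‖) :=
          integral_mono hint (h2.add k2) hle
      _ = (∫ ξ, (1 + ‖ξ‖ ^ s) * ‖φ ξ‖) + ∫ ξ, (1 + ‖ξ‖ ^ s) * ‖ψ ξ‖ := integral_add h2 k2
      _ ≤ A + B := add_le_add h4 k4

theorem WienerRep.sub' {s : ℕ} {f g : E → ℂ} {A B : ℝ} (hf : WienerRep s f A)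
    (hg : WienerRep s g B) : WienerRep s (fun x => f x - g x) (A + B) := by
  have h := WienerRep.add' hf (WienerRep.const_mul hg (-1))
  simp only [norm_neg, norm_one, one_mul, neg_mul, ← sub_eq_add_neg] at h
  exact h

/-- The weighted Wiener norm. -/
noncomputable def wn (s : ℕ) (f : E → ℂ) : ℝ := sInf {A | WienerRep s f A}

theorem wn_le {s : ℕ} {f : E → ℂ} {A : ℝ} (hf : WienerRep s f A) : wn s f ≤ A :=
  csInf_le ⟨0, fun _ h => WienerRep.nonneg h⟩ hf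

theorem wn_nonneg {s : ℕ} {f : E → ℂ} : 0 ≤ wn s f :=
  Real.sInf_nonneg fun _ h => WienerRep.nonneg h

/-- The weighted Wiener norm is attained. -/
theorem WienerRep.attained {s : ℕ} {f : E → ℂ} {A : ℝ} (hf : WienerRep s f A) :
    WienerRep s f (wn s f) := by
  obtain ⟨φ, h1, h2, h3, h4⟩ := hf
  refine ⟨φ, h1, h2, h3, ?_⟩
  have hne : {A | WienerRep s f A}.Nonempty := ⟨A, ⟨φ, h1, h2, h3, h4⟩⟩
  apply le_csInf hne
  rintro B ⟨ψ, k1, k2, k3, k4⟩
  have hae := ae_eq_of_fourierInv_eq h1 k1 (fun x => (h3 x).symm.trans (k3 x))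
  refine le_trans (le_of_eq ?_) k4
  apply integral_congr_ae
  filter_upwards [hae] with ξ hξ
  rw [hξ]

lemma integrable_pow_mul {s : ℕ} {φ : E → ℂ} (h1 : Integrable φ)
    (h2 : Integrable (fun ξ => (1 + ‖ξ‖ ^ s) * ‖φ ξ‖)) {k : ℕ} (hk : k ≤ s) :
    Integrable (fun ξ => ‖ξ‖ ^ k * ‖φ ξ‖) ∧
      ∫ ξ, ‖ξ‖ ^ k * ‖φ ξ‖ ≤ ∫ ξ, (1 + ‖ξ‖ ^ s) * ‖φ ξ‖ := by
  have hle : ∀ ξ : E, ‖ξ‖ ^ k * ‖φ ξ‖ ≤ (1 + ‖ξ‖ ^ s) * ‖φ ξ‖ := by
    intro ξ
    gcongr
    rcases le_total ‖ξ‖ 1 with h | h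
    · have : ‖ξ‖ ^ k ≤ 1 := pow_le_one₀ (norm_nonneg _) h
      have : 0 ≤ ‖ξ‖ ^ s := by positivity
      linarith
    · have : ‖ξ‖ ^ k ≤ ‖ξ‖ ^ s := pow_le_pow_right₀ h hk
      linarith
  have hint : Integrable (fun ξ : E => ‖ξ‖ ^ k * ‖φ ξ‖) := by
    apply h2.mono'
    · apply AEStronglyMeasurable.mul
      · exact (by fun_prop : Continuous fun ξ : E => ‖ξ‖ ^ k).aestronglyMeasurable
      · exact h1.1.norm
    · filter_upwards with ξ
      rw [Real.norm_of_nonneg (by positivity)]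
      exact hle ξ
  exact ⟨hint, integral_mono hint h2 hle⟩

lemma norm_circle_smul' {G : Type*} [NormedAddCommGroup G] [NormedSpace ℂ G] (c : Circle)
    (v : G) : ‖c • v‖ = ‖v‖ := Circle.norm_smul c v

/-- Wiener functions of order `s` are `C^s`. -/
theorem WienerRep.contDiff {s : ℕ} {f : E → ℂ} {A : ℝ} (hf : WienerRep s f A) :
    ContDiff ℝ s f := by
  obtain ⟨φ, h1, h2, h3, h4⟩ := hf
  have hfe : f = 𝓕 (fun ξ => φ (-ξ)) := by
    ext x
    rw [h3 x, Real.fourierInv_eq_fourier_comp_neg]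
  rw [hfe]
  apply Real.contDiff_fourier (N := (s : ℕ∞))
  intro n hn
  have hn' : n ≤ s := by exact_mod_cast hn
  have := (integrable_pow_mul h1 h2 hn').1.comp_neg
  simpa using this

/-- Derivatives of order `≤ s` of a Wiener function are bounded by its norm. -/
theorem WienerRep.iteratedFDeriv_le {s : ℕ} {f : E → ℂ} {A : ℝ} (hf : WienerRep s f A)
    {k : ℕ} (hk : k ≤ s) (x : E) :
    ‖iteratedFDeriv ℝ k f x‖ ≤ (2 * π) ^ k * A := by
  obtain ⟨φ, h1, h2, h3, h4⟩ := hf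
  have hfe : f = 𝓕 (fun ξ => φ (-ξ)) := by
    ext x
    rw [h3 x, Real.fourierInv_eq_fourier_comp_neg]
  have hI : ∀ n : ℕ, (n : ℕ∞) ≤ (s : ℕ∞) → Integrable (fun v : E => ‖v‖ ^ n * ‖φ (-v)‖) := by
    intro n hn
    have hn' : n ≤ s := by exact_mod_cast hn
    have := (integrable_pow_mul h1 h2 hn').1.comp_neg
    simpa using this
  rw [hfe, Real.iteratedFDeriv_fourier (N := (s : ℕ∞)) hI h1.comp_neg.1
    (by exact_mod_cast hk), Real.fourier_eq]
  calc ‖∫ v, Real.fourierChar (-inner ℝ v x) •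
        VectorFourier.fourierPowSMulRight (innerSL ℝ) (fun ξ => φ (-ξ)) v k‖
      ≤ ∫ v, ‖Real.fourierChar (-inner ℝ v x) •
        VectorFourier.fourierPowSMulRight (innerSL ℝ) (fun ξ => φ (-ξ)) v k‖ :=
        norm_integral_le_integral_norm _
    _ = ∫ v, ‖VectorFourier.fourierPowSMulRight (innerSL ℝ) (fun ξ => φ (-ξ)) v k‖ := by
        refine integral_congr_ae (Eventually.of_forall fun v => ?_)
        exact norm_circle_smul' (G := ContinuousMultilinearMap ℝ (fun _ : Fin k => E) ℂ) _ _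
    _ ≤ ∫ v : E, (2 * π) ^ k * (‖v‖ ^ k * ‖φ (-v)‖) := by
        apply integral_mono_of_nonneg
        · exact Eventually.of_forall fun v => norm_nonneg _
        · exact (hI k (by exact_mod_cast hk)).const_mul _
        · refine Eventually.of_forall fun v => ?_
          refine (VectorFourier.norm_fourierPowSMulRight_le (innerSL ℝ) (fun ξ => φ (-ξ)) v k).trans ?_
          show _ ≤ (2 * π) ^ k * (‖v‖ ^ k * ‖φ (-v)‖)
          rw [← mul_assoc]
          have h5 : ‖(innerSL ℝ : E →L[ℝ] E →L[ℝ] ℝ)‖ ≤ 1 := norm_innerSL_le _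
          have h6 : 2 * π * ‖(innerSL ℝ : E →L[ℝ] E →L[ℝ] ℝ)‖ ≤ 2 * π := by
            calc 2 * π * ‖(innerSL ℝ : E →L[ℝ] E →L[ℝ] ℝ)‖ ≤ 2 * π * 1 := by gcongr
              _ = 2 * π := mul_one _
          have h7 : (2 * π * ‖(innerSL ℝ : E →L[ℝ] E →L[ℝ] ℝ)‖) ^ k ≤ (2 * π) ^ k := by
            gcongr
          exact mul_le_mul_of_nonneg_right (mul_le_mul_of_nonneg_right h7 (by positivity))
            (norm_nonneg _)
    _ = (2 * π) ^ k * ∫ v : E, (‖v‖ ^ k * ‖φ (-v)‖) := integral_const_mul _ _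
    _ = (2 * π) ^ k * ∫ v : E, (‖v‖ ^ k * ‖φ v‖) := by
        congr 1
        have := integral_neg_eq_self (fun v : E => ‖v‖ ^ k * ‖φ v‖) volume
        simpa using this
    _ ≤ (2 * π) ^ k * A := by
        gcongr
        exact (integrable_pow_mul h1 h2 hk).2.trans h4

end Vale.Agent.P139.H744
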