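import Vale.Agent.P139.H744.Wprod
import Vale.Agent.P139.BU.ModEC

/-!
# Closing lemma and representation of an eigenpair (task X6c)

`L00 u = i Δ u - (1/2) y·∇u`.  For a pair `(u₁, u₂)` (`u₂` stands for the conjugate of the second
component) solving `κⱼ uⱼ - L00 uⱼ = Hⱼ + Eⱼ` with
`H₁ = -i((m+1) V₁ u₁ + m V₂ conj u₂)`, `H₂ = -i((m+1) V₁ u₂ + m V₂ conj u₁)`,
the Wiener norms are controlled by the localised parts `χ Hⱼ`, and
`uⱼ = pⱼ + qⱼ + rⱼ` with `pⱼ = R(κⱼ)(χ Hⱼ)`, `qⱼ = R(κⱼ) Eⱼ`, `rⱼ = R(κⱼ)((1-χ) Hⱼ)` small.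
-/

open MeasureTheory Complex Filter Topology Metric
open scoped ContDiff ComplexConjugate

namespace Vale.Agent.P139.H744

open Vale.Agent.P139.H201 Vale.Agent.P139.BU

variable {d : ℕ}

/-- The free operator `i Δ - (1/2) y·∇`. -/
noncomputable def L00 (u : E d → ℂ) (y : E d) : ℂ := I * lap u y - (1 / 2) * eul u y

/-- Existence of the free resolvent on Wiener functions (block X3a). -/
def ResEx (d s : ℕ) : Prop :=
  ∀ (kap : ℂ), 0 < kap.re → ∀ (h : E d → ℂ) (C : ℝ), WienerRep s h C →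
    ∃ u : E d → ℂ, WienerRep s u (C / kap.re) ∧ ∀ y, kap * u y - L00 u y = h y

/-- Bound (and uniqueness) for the free resolvent (blocks X3a + X3b). -/
def ResBd (d s : ℕ) : Prop :=
  ∀ (kap : ℂ), 0 < kap.re → ∀ (u h : E d → ℂ) (A C : ℝ), WienerRep s u A → WienerRep s h C →
    (∀ y, kap * u y - L00 u y = h y) → WienerRep s u (C / kap.re)

/-- The potential term. -/
noncomputable def Hf (m : ℕ) (V₁ V₂ u₁ u₂ : E d → ℂ) (y : E d) : ℂ :=
  -I * (((m : ℂ) + 1) * V₁ y * u₁ y + (m : ℂ) * V₂ y * conj (u₂ y))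

theorem L00_add {u v : E d → ℂ} (hu : ContDiff ℝ 2 u) (hv : ContDiff ℝ 2 v) (y : E d) :
    L00 (fun x => u x + v x) y = L00 u y + L00 v y := by
  unfold L00
  have e1 : eul (fun x => u x + v x) y = eul u y + eul v y := fderiv_add2 hu hv y y
  rw [lap_add2 hu hv, e1]
  ring

theorem L00_cmul (c : ℂ) {u : E d → ℂ} (hu : ContDiff ℝ 2 u) (y : E d) :
    L00 (fun x => c * u x) y = c * L00 u y := by
  unfold L00
  have e1 : eul (fun x => c * u x) y = c * eul u y := fderiv_cmul2 c hu y y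
  rw [lap_cmul2 c hu, e1]
  ring

theorem L00_sub {u v : E d → ℂ} (hu : ContDiff ℝ 2 u) (hv : ContDiff ℝ 2 v) (y : E d) :
    L00 (fun x => u x - v x) y = L00 u y - L00 v y := by
  have h := L00_add hu (v := fun x => (-1 : ℂ) * v x) (contDiff_const.mul hv) y
  rw [L00_cmul (-1) hv] at h
  simpa [sub_eq_add_neg] using h

/-- Uniqueness for the free resolvent. -/
theorem res_unique {s : ℕ} (hs : 2 ≤ s) (hRB : ResBd d s) {kap : ℂ} (hk : 0 < kap.re)
    {u v h : E d → ℂ} {A B : ℝ} (hu : WienerRep s u A) (hv : WienerRep s v B)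
    (eu : ∀ y, kap * u y - L00 u y = h y) (ev : ∀ y, kap * v y - L00 v y = h y) (y : E d) :
    u y = v y := by
  have h2 : (2 : WithTop ℕ∞) ≤ (s : WithTop ℕ∞) := by exact_mod_cast hs
  have hu2 : ContDiff ℝ 2 u := (WienerRep.contDiff hu).of_le h2
  have hv2 : ContDiff ℝ 2 v := (WienerRep.contDiff hv).of_le h2
  have h0 : WienerRep s (fun _ : E d => (0 : ℂ)) 0 := by
    refine ⟨fun _ => 0, integrable_zero _ _ _, by simp, fun x => ?_, by simp⟩
    rw [Real.fourierInv_eq]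
    simp
  have hd := hRB kap hk (fun x => u x - v x) (fun _ => 0) _ 0 (WienerRep.sub' hu hv) h0 (by
    intro x
    rw [L00_sub hu2 hv2]
    linear_combination eu x - ev x)
  have := WienerRep.norm_le hd y
  rw [zero_div] at this
  have h3 : u y - v y = 0 := norm_le_zero_iff.1 this
  exact sub_eq_zero.1 h3

/-- The tail part of the potential term. -/
theorem Hf_tail {s m : ℕ} {V₁ V₂ χ u₁ u₂ : E d → ℂ} {n₁ n₂ N ε : ℝ}
    (hu₁ : WienerRep s u₁ n₁) (hu₂ : WienerRep s u₂ n₂) (h1 : n₁ ≤ N) (h2 : n₂ ≤ N)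
    (hV₁ : WienerRep s (fun y => (1 - χ y) * V₁ y) ε)
    (hV₂ : WienerRep s (fun y => (1 - χ y) * V₂ y) ε) :
    WienerRep s (fun y => (1 - χ y) * Hf m V₁ V₂ u₁ u₂ y) (2 ^ s * (2 * m + 1) * ε * N) := by
  have hε : 0 ≤ ε := WienerRep.nonneg hV₁
  have a1 := WienerRep.const_mul (WienerRep.mul hV₁ hu₁) (-I * ((m : ℂ) + 1))
  have a2 := WienerRep.const_mul (WienerRep.mul hV₂ (WienerRep.conj hu₂)) (-I * (m : ℂ))
  have a3 := WienerRep.add' a1 a2
  have e : (fun y => -I * ((m : ℂ) + 1) * ((1 - χ y) * V₁ y * u₁ y) +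
      -I * (m : ℂ) * ((1 - χ y) * V₂ y * conj (u₂ y))) =
      fun y => (1 - χ y) * Hf m V₁ V₂ u₁ u₂ y := by
    ext y
    unfold Hf
    ring
  rw [e] at a3
  refine WienerRep.mono a3 ?_
  have n1 : ‖-I * ((m : ℂ) + 1)‖ = (m : ℝ) + 1 := by
    rw [norm_mul, norm_neg, Complex.norm_I, one_mul]
    have : ((m : ℂ) + 1) = ((m + 1 : ℕ) : ℂ) := by push_cast; ring
    rw [this, Complex.norm_natCast]
    push_cast; ring
  have n2 : ‖-I * (m : ℂ)‖ = (m : ℝ) := by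
    rw [norm_mul, norm_neg, Complex.norm_I, one_mul, Complex.norm_natCast]
  rw [n1, n2]
  calc ((m : ℝ) + 1) * (2 ^ s * (ε * n₁)) + (m : ℝ) * (2 ^ s * (ε * n₂))
      ≤ ((m : ℝ) + 1) * (2 ^ s * (ε * N)) + (m : ℝ) * (2 ^ s * (ε * N)) := by gcongr
    _ = 2 ^ s * (2 * m + 1) * ε * N := by ring

theorem Hf_split {m : ℕ} {V₁ V₂ χ u₁ u₂ : E d → ℂ} (y : E d) :
    Hf m V₁ V₂ u₁ u₂ y = χ y * Hf m V₁ V₂ u₁ u₂ y + (1 - χ y) * Hf m V₁ V₂ u₁ u₂ y := by ring

/-- **Closing lemma**: a priori bound from the localised parts. -/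
theorem closing_bound {s m : ℕ} (hRB : ResBd d s) {kap₁ kap₂ : ℂ} {a : ℝ}
    (ha : 0 < a) (hk₁ : a ≤ kap₁.re) (hk₂ : a ≤ kap₂.re)
    {V₁ V₂ χ u₁ u₂ e₁ e₂ : E d → ℂ} {A₁ A₂ B ε S : ℝ}
    (hu₁ : WienerRep s u₁ A₁) (hu₂ : WienerRep s u₂ A₂)
    (hV₁ : WienerRep s (fun y => (1 - χ y) * V₁ y) ε)
    (hV₂ : WienerRep s (fun y => (1 - χ y) * V₂ y) ε)
    (he₁ : WienerRep s e₁ S) (he₂ : WienerRep s e₂ S)
    (hc₁ : WienerRep s (fun y => χ y * Hf m V₁ V₂ u₁ u₂ y) B)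
    (hc₂ : WienerRep s (fun y => χ y * Hf m V₁ V₂ u₂ u₁ y) B)
    (eq₁ : ∀ y, kap₁ * u₁ y - L00 u₁ y = Hf m V₁ V₂ u₁ u₂ y + e₁ y)
    (eq₂ : ∀ y, kap₂ * u₂ y - L00 u₂ y = Hf m V₁ V₂ u₂ u₁ y + e₂ y)
    (hsmall : 2 ^ s * (2 * m + 1) * ε ≤ a / 2) :
    WienerRep s u₁ (2 * (B + S) / a) ∧ WienerRep s u₂ (2 * (B + S) / a) := by
  set n₁ := wn s u₁ with hn₁
  set n₂ := wn s u₂ with hn₂
  have r₁ : WienerRep s u₁ n₁ := WienerRep.attained hu₁
  have r₂ : WienerRep s u₂ n₂ := WienerRep.attained hu₂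
  set N := max n₁ n₂ with hN
  have hN0 : 0 ≤ N := le_max_of_le_left wn_nonneg
  have hB : 0 ≤ B := WienerRep.nonneg hc₁
  have hS : 0 ≤ S := WienerRep.nonneg he₁
  have key : ∀ (kap : ℂ) (u v e : E d → ℂ) (n n' : ℝ), a ≤ kap.re → WienerRep s u n →
      WienerRep s v n' → n ≤ N → n' ≤ N → WienerRep s e S →
      WienerRep s (fun y => χ y * Hf m V₁ V₂ u v y) B →
      (∀ y, kap * u y - L00 u y = Hf m V₁ V₂ u v y + e y) →
      wn s u ≤ (B + S) / a + N / 2 := by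
    intro kap u v e n n' hk hu hv h1 h2 he hc heq
    have hkp : 0 < kap.re := lt_of_lt_of_le ha hk
    have ht := Hf_tail (m := m) hu hv h1 h2 hV₁ hV₂
    have hsum := WienerRep.add' (WienerRep.add' hc ht) he
    have e' : (fun y => χ y * Hf m V₁ V₂ u v y + (1 - χ y) * Hf m V₁ V₂ u v y + e y) =
        fun y => Hf m V₁ V₂ u v y + e y := by
      ext y; ring
    rw [e'] at hsum
    have hb := hRB kap hkp u _ _ _ hu hsum heq
    have hle := wn_le hb
    have hnum : B + 2 ^ s * (2 * (m : ℝ) + 1) * ε * N + S ≤ B + a / 2 * N + S := by gcongr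
    have hpos : 0 ≤ B + 2 ^ s * (2 * (m : ℝ) + 1) * ε * N + S := WienerRep.nonneg hsum
    calc wn s u ≤ (B + 2 ^ s * (2 * (m : ℝ) + 1) * ε * N + S) / kap.re := hle
      _ ≤ (B + 2 ^ s * (2 * (m : ℝ) + 1) * ε * N + S) / a := by gcongr
      _ ≤ (B + a / 2 * N + S) / a := by gcongr
      _ = (B + S) / a + N / 2 := by field_simp; ring
  have k1 := key kap₁ u₁ u₂ e₁ n₁ n₂ hk₁ r₁ r₂ (le_max_left _ _) (le_max_right _ _) he₁ hc₁ eq₁
  have k2 := key kap₂ u₂ u₁ e₂ n₂ n₁ hk₂ r₂ r₁ (le_max_right _ _) (le_max_left _ _) he₂ hc₂ eq₂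
  have hNle : N ≤ (B + S) / a + N / 2 := max_le k1 k2
  have hN2 : N ≤ 2 * (B + S) / a := by
    have : 2 * (B + S) / a = 2 * ((B + S) / a) := by ring
    rw [this]
    linarith
  exact ⟨WienerRep.mono r₁ ((le_max_left _ _).trans hN2),
    WienerRep.mono r₂ ((le_max_right _ _).trans hN2)⟩

/-- **Representation** of one component: `u = p + q + r`. -/
theorem representation {s m : ℕ} (hs : 2 ≤ s) (hRE : ResEx d s) (hRB : ResBd d s)
    {kap : ℂ} {a : ℝ} (ha : 0 < a) (hk : a ≤ kap.re)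
    {V₁ V₂ χ u v e : E d → ℂ} {B ε S N : ℝ}
    (hu : WienerRep s u N) (hv : WienerRep s v N)
    (hV₁ : WienerRep s (fun y => (1 - χ y) * V₁ y) ε)
    (hV₂ : WienerRep s (fun y => (1 - χ y) * V₂ y) ε)
    (he : WienerRep s e S)
    (hc : WienerRep s (fun y => χ y * Hf m V₁ V₂ u v y) B)
    (heq : ∀ y, kap * u y - L00 u y = Hf m V₁ V₂ u v y + e y) :
    ∃ p q r : E d → ℂ, (∀ y, u y = p y + q y + r y) ∧
      (∀ y, kap * p y - L00 p y = χ y * Hf m V₁ V₂ u v y) ∧ WienerRep s p (B / a) ∧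
      (∀ y, kap * q y - L00 q y = e y) ∧ WienerRep s q (S / a) ∧
      (∀ y, kap * r y - L00 r y = (1 - χ y) * Hf m V₁ V₂ u v y) ∧
      WienerRep s r (2 ^ s * (2 * m + 1) * ε * N / a) := by
  have hkp : 0 < kap.re := lt_of_lt_of_le ha hk
  have h2 : (2 : WithTop ℕ∞) ≤ (s : WithTop ℕ∞) := by exact_mod_cast hs
  have ht := Hf_tail (m := m) hu hv le_rfl le_rfl hV₁ hV₂
  obtain ⟨p, hp, ep⟩ := hRE kap hkp _ _ hc
  obtain ⟨q, hq, eq⟩ := hRE kap hkp _ _ he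
  obtain ⟨r, hr, er⟩ := hRE kap hkp _ _ ht
  have cp : ContDiff ℝ 2 p := (WienerRep.contDiff hp).of_le h2
  have cq : ContDiff ℝ 2 q := (WienerRep.contDiff hq).of_le h2
  have cr : ContDiff ℝ 2 r := (WienerRep.contDiff hr).of_le h2
  have hB : 0 ≤ B := WienerRep.nonneg hc
  have hS : 0 ≤ S := WienerRep.nonneg he
  have hT : 0 ≤ 2 ^ s * (2 * (m : ℝ) + 1) * ε * N := WienerRep.nonneg ht
  refine ⟨p, q, r, ?_, ep, WienerRep.mono hp (by gcongr), eq, WienerRep.mono hq (by gcongr), er,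
    WienerRep.mono hr (by gcongr)⟩
  have hsum := WienerRep.add' (WienerRep.add' hp hq) hr
  refine res_unique hs hRB hkp hu hsum heq ?_
  intro y
  rw [L00_add (cp.add cq) cr, L00_add cp cq]
  linear_combination ep y + eq y + er y

/-- `LL1, LL2` equations in the form used above (`γ = conj g`). -/
theorem eq_of_LL {m : ℕ} {w : ℝ} {Q f g e₁ e₂ : E d → ℂ} {lam : ℂ}
    (h1 : ∀ y, LL1 m w Q f g y = lam * f y + e₁ y)
    (h2 : ∀ y, LL2 m w Q f g y = lam * g y + e₂ y) :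
    (∀ y, (lam + (aa m : ℂ) - I * (w : ℂ)) * f y - L00 f y =
      Hf m (fun x => W1 m (Q x)) (fun x => W2 m (Q x)) f (fun x => conj (g x)) y + (-e₁ y)) ∧
    (∀ y, (conj lam + (aa m : ℂ) - I * (w : ℂ)) * conj (g y) - L00 (fun x => conj (g x)) y =
      Hf m (fun x => W1 m (Q x)) (fun x => W2 m (Q x)) (fun x => conj (g x)) f y
        + (-conj (e₂ y))) := by
  constructor
  · intro y
    have h := h1 y
    unfold LL1 at h
    unfold L00 Hf
    simp only [Complex.conj_conj]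
    linear_combination -h
  · intro y
    have h := congrArg conj (h2 y)
    unfold LL2 at h
    have e1 : eul (fun x => conj (g x)) y = conj (eul g y) := fderiv_conj' y y
    unfold L00 Hf
    rw [lap_conj, e1]
    simp only [map_sub, map_add, map_mul, map_neg, Complex.conj_I, Complex.conj_conj, W1_real,
      Complex.conj_ofReal, map_one, map_natCast, map_div₀, map_ofNat] at h ⊢
    linear_combination -h

end Vale.Agent.P139.H744
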