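import Vale.Agent.P139.H744.Close
import Vale.Agent.P139.H940.Res2
import Vale.Agent.P139.H741.XUniq

/-!
# The free resolvent on Wiener functions: instantiation of `ResEx` and `ResBd`
-/

open MeasureTheory Complex Filter Topology Metric
open scoped ContDiff ComplexConjugate FourierTransform

namespace Vale.Agent.P139.H744

open Vale.Agent.P139.H201 Vale.Agent.P139.BU

variable {d : ℕ}

theorem resEx {s : ℕ} (hs : 2 ≤ s) : ResEx d s := by
  intro kap hk h C hh
  obtain ⟨u, h1, -, h3⟩ := Vale.Agent.P139.H940.resolvent_wiener hk hs hh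
  exact ⟨u, h1, h3⟩

/-- Uniqueness in the Wiener class. -/
theorem free_zero {s : ℕ} (hs : 2 ≤ s) {kap : ℂ} (hk : 0 < kap.re) {u : E d → ℂ} {A : ℝ}
    (hu : WienerRep s u A) (heq : ∀ y, kap * u y - L00 u y = 0) (y : E d) : u y = 0 := by
  obtain ⟨φ, h1, h2, h3, h4⟩ := hu
  have hfe : u = 𝓕⁻ φ := funext h3
  rw [hfe]
  refine Vale.Agent.P139.H741.free_unique h1 (integrable_pow_mul h1 h2 hs).1 hk ?_ y
  intro z
  have := heq z
  rw [hfe] at this
  unfold L00 at this
  linear_combination this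

theorem resBd {s : ℕ} (hs : 2 ≤ s) : ResBd d s := by
  intro kap hk u h A C hu hh heq
  obtain ⟨v, hv, ev⟩ := resEx hs kap hk h C hh
  have h2 : (2 : WithTop ℕ∞) ≤ (s : WithTop ℕ∞) := by exact_mod_cast hs
  have hu2 : ContDiff ℝ 2 u := (WienerRep.contDiff hu).of_le h2
  have hv2 : ContDiff ℝ 2 v := (WienerRep.contDiff hv).of_le h2
  have hz : ∀ y, u y - v y = 0 := free_zero hs hk (WienerRep.sub' hu hv) (by
    intro y
    rw [L00_sub hu2 hv2]
    linear_combination heq y - ev y)
  have : u = v := funext fun y => sub_eq_zero.1 (hz y)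
  rw [this]
  exact hv

end Vale.Agent.P139.H744
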