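import Vale.Agent.P139.H901.Nu2
import Vale.Agent.P139.H523.X2a

/-! P139, block [X], X8.pol: mass and moments of a mode `hF(|y|²) h(y)` in polar coordinates. -/

open Set Filter Topology Complex MeasureTheory
open Vale.Agent.P139.BU
open Vale.Agent.P139.H523 (modeFn)
open Vale.Agent.P139.H889 (momC)
open Vale.Agent.P139.H901 (lam1 nu2)
open Vale.Agent.P225 (Harm pev sig sph)

namespace Vale.Agent.P139.H744

variable {d l : ℕ} {h : MvPolynomial (Fin d) ℝ} {hF F : ℝ → ℂ}

theorem norm_smul_sphere {r : ℝ} (hr : 0 ≤ r) (θ : Metric.sphere (0 : E d) 1) :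
    ‖r • (θ : E d)‖ = r := by
  have h1 : ‖(θ : E d)‖ = 1 := mem_sphere_zero_iff_norm.1 θ.2
  rw [norm_smul, h1, Real.norm_eq_abs, abs_of_nonneg hr, mul_one]

/-- the mode on the sphere of radius `r` -/
theorem modeFn_smul (hh : Harm l h) (eF : ∀ r : ℝ, 0 < r → F r = (r : ℂ) ^ l * hF (r ^ 2)) {r : ℝ}
    (hr : 0 < r) (θ : Metric.sphere (0 : E d) 1) :
    modeFn hF (fun y : E d => (pev h y : ℂ)) (r • (θ : E d)) = F r * (pev h (θ : E d) : ℂ) := by
  unfold modeFn
  beta_reduce
  rw [norm_smul_sphere hr.le, eF r hr, Vale.Agent.P225.pev_smul hh.1]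
  push_cast
  ring

/-- moments of a mode -/
theorem momC_mode (hh : Harm l h) (eF : ∀ r : ℝ, 0 < r → F r = (r : ℂ) ^ l * hF (r ^ 2)) {r : ℝ}
    (hr : 0 < r) :
    momC (modeFn hF (fun y : E d => (pev h y : ℂ))) h r = (nu2 h : ℂ) * F r := by
  unfold momC nu2
  have e : ∀ θ : Metric.sphere (0 : E d) 1,
      modeFn hF (fun y : E d => (pev h y : ℂ)) (r • (θ : E d)) * (pev h (θ : E d) : ℂ) =
        F r * (((pev h (θ : E d)) ^ 2 : ℝ) : ℂ) := by
    intro θ
    rw [modeFn_smul hh eF hr]
    push_cast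
    ring
  rw [integral_congr_ae (Eventually.of_forall e), integral_const_mul, mul_comm]
  congr 1
  exact integral_ofReal (𝕜 := ℂ)

theorem continuous_mode (hc : Continuous hF) :
    Continuous (modeFn hF (fun y : E d => (pev h y : ℂ))) := by
  unfold modeFn
  exact (hc.comp (by fun_prop)).mul
    (Complex.continuous_ofReal.comp (Vale.Agent.P225.pev_cont h))

/-- mass of a mode -/
theorem pol_int [NeZero d] (hh : Harm l h) (hc : Continuous hF)
    (eF : ∀ r : ℝ, 0 < r → F r = (r : ℂ) ^ l * hF (r ^ 2)) {ρ : ℝ} (hρ : 0 ≤ ρ) :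
    ∫ y in Metric.closedBall (0 : E d) ρ, ‖modeFn hF (fun y : E d => (pev h y : ℂ)) y‖ =
      lam1 h * ∫ r in (0 : ℝ)..ρ, ‖F r‖ * r ^ (d - 1) := by
  set u : E d → ℂ := modeFn hF (fun y : E d => (pev h y : ℂ)) with hu
  have cu : Continuous u := continuous_mode hc
  set g : E d → ℝ := (Metric.closedBall (0 : E d) ρ).indicator (fun y => ‖u y‖) with hg
  have mB : MeasurableSet (Metric.closedBall (0 : E d) ρ) := measurableSet_closedBall
  have ig : Integrable g := by
    rw [hg, integrable_indicator_iff mB]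
    exact (cu.norm.continuousOn).integrableOn_compact (isCompact_closedBall _ _)
  have e1 : ∫ y in Metric.closedBall (0 : E d) ρ, ‖u y‖ = ∫ y, g y := by
    rw [hg, integral_indicator mB]
  rw [e1, Vale.Agent.P225.integral_polar g ig]
  have e2 : ∀ r ∈ Ioi (0 : ℝ), r ^ (d - 1) * sph g r =
      (Ioc (0 : ℝ) ρ).indicator (fun r => lam1 h * (‖F r‖ * r ^ (d - 1))) r := by
    intro r hr
    have hr0 : (0 : ℝ) < r := hr
    unfold sph
    by_cases hrρ : r ≤ ρ
    · rw [indicator_of_mem (show r ∈ Ioc (0 : ℝ) ρ from ⟨hr0, hrρ⟩)]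
      have e : ∀ θ : Metric.sphere (0 : E d) 1,
          g (r • (θ : E d)) = ‖F r‖ * |pev h (θ : E d)| := by
        intro θ
        have hm : r • (θ : E d) ∈ Metric.closedBall (0 : E d) ρ := by
          rw [mem_closedBall_zero_iff, norm_smul_sphere hr0.le]
          exact hrρ
        rw [hg, indicator_of_mem hm, hu, modeFn_smul hh eF hr0, norm_mul, Complex.norm_real,
          Real.norm_eq_abs]
      rw [integral_congr_ae (Eventually.of_forall e), integral_const_mul]
      unfold lam1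
      ring
    · rw [indicator_of_notMem (fun hm : r ∈ Ioc (0 : ℝ) ρ => hrρ hm.2)]
      have e : ∀ θ : Metric.sphere (0 : E d) 1, g (r • (θ : E d)) = 0 := by
        intro θ
        refine indicator_of_notMem (fun hm => hrρ ?_) _
        rwa [mem_closedBall_zero_iff, norm_smul_sphere hr0.le] at hm
      rw [integral_congr_ae (Eventually.of_forall e)]
      simp
  rw [setIntegral_congr_fun measurableSet_Ioi e2, setIntegral_indicator measurableSet_Ioc]
  have e3 : Ioi (0 : ℝ) ∩ Ioc 0 ρ = Ioc 0 ρ := by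
    ext x
    simp only [mem_inter_iff, mem_Ioi, mem_Ioc]
    tauto
  rw [e3, integral_const_mul, intervalIntegral.integral_of_le hρ]

end Vale.Agent.P139.H744
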