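import Vale.Agent.P139.H744.Inst
import Vale.Agent.P139.H305.X6LL

/-!
# Quantitative representation of an eigenpair (task X8a)

`f = p + q + r`, `p = R(κ)(χ Hf)` localised source, `q = -R(κ) e₁`, `r` small (tail of the
potentials), with constants polynomial in `|λ|, m` and the sup bounds of the potentials on the
ball, times the `L¹` norm of the pair on the ball.
-/

open MeasureTheory Complex Filter Topology Metric
open scoped ContDiff ComplexConjugate

namespace Vale.Agent.P139.H744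

open Vale.Agent.P139.H201 Vale.Agent.P139.BU Vale.Agent.P139.H305

variable {d : ℕ}

lemma hasCompactSupport_of_zero {χ : E d → ℂ} {ρ : ℝ} (h0 : ∀ x, ρ < ‖x‖ → χ x = 0) :
    HasCompactSupport χ := by
  apply HasCompactSupport.of_support_subset_isCompact (isCompact_closedBall (0 : E d) ρ)
  intro x hx
  rw [mem_closedBall_zero_iff]
  by_contra h
  exact hx (h0 x (not_le.mp h))

lemma DB_lower {n : ℕ} {R A : ℝ} {p : E d → ℂ} (h : DB (n + 1) R A p) : DB n R A p :=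
  ⟨h.1.of_le (by exact_mod_cast Nat.le_succ n), fun i hi x hx => h.2 i (by omega) x hx⟩

theorem aa_eq (m : ℕ) : aa m = 1 / (2 * (m : ℝ)) := rfl

/-- **X8a**: closing and representation with explicit polynomial constants. -/
theorem ext_rep (d s : ℕ) (hs : 2 ≤ s) {ρ1 ρ2 : ℝ} (h1 : 0 < ρ1) (h12 : ρ1 < ρ2)
    {χ : E d → ℂ} (hχ : ContDiff ℝ ∞ χ) (hχ0 : ∀ x, ρ1 < ‖x‖ → χ x = 0) :
    ∃ (n : ℕ) (C : ℝ), 0 < C ∧
      ∀ (m : ℕ) (w : ℝ) (lam : ℂ) (Q f g e₁ e₂ : E d → ℂ) (A ε T S A0 : ℝ), 1 ≤ m →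
      0 ≤ lam.re → 1 ≤ A → 0 ≤ T →
      WienerRep s f A0 → WienerRep s g A0 →
      DB n ρ2 A (fun x => W1 m (Q x)) → DB n ρ2 A (fun x => W2 m (Q x)) →
      DB n ρ2 A (fun x => conj (W2 m (Q x))) → DB n ρ2 T e₁ → DB n ρ2 T e₂ →
      WienerRep s e₁ S → WienerRep s e₂ S →
      (∀ x, LL1 m w Q f g x = lam * f x + e₁ x) → (∀ x, LL2 m w Q f g x = lam * g x + e₂ x) →
      WienerRep s (fun y => (1 - χ y) * W1 m (Q y)) ε →
      WienerRep s (fun y => (1 - χ y) * W2 m (Q y)) ε →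
      2 ^ s * (2 * m + 1) * ε ≤ aa m / 2 →
      ∀ K : ℝ, K = C * ((‖lam‖ + |w| + m + 2) * A) ^ n *
        ((∫ x in closedBall (0 : E d) ρ2, (‖f x‖ + ‖g x‖)) + T) →
      WienerRep s f (4 * m * (K + S)) ∧ WienerRep s g (4 * m * (K + S)) ∧
      (∃ p q r : E d → ℂ, (∀ y, f y = p y + q y + r y) ∧
        (∀ y, (lam + (aa m : ℂ) - I * (w : ℂ)) * p y - L00 p y =
          χ y * Hf m (fun x => W1 m (Q x)) (fun x => W2 m (Q x)) f (fun x => conj (g x)) y) ∧
        WienerRep s p (2 * m * K) ∧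
        (∀ y, (lam + (aa m : ℂ) - I * (w : ℂ)) * q y - L00 q y = -e₁ y) ∧
        WienerRep s q (2 * m * S) ∧
        WienerRep s r (2 ^ s * (2 * m + 1) * ε * (4 * m * (K + S)) * (2 * m))) ∧
      (∃ p q r : E d → ℂ, (∀ y, conj (g y) = p y + q y + r y) ∧
        (∀ y, (conj lam + (aa m : ℂ) - I * (w : ℂ)) * p y - L00 p y =
          χ y * Hf m (fun x => W1 m (Q x)) (fun x => W2 m (Q x)) (fun x => conj (g x)) f y) ∧
        WienerRep s p (2 * m * K) ∧
        (∀ y, (conj lam + (aa m : ℂ) - I * (w : ℂ)) * q y - L00 q y = -conj (e₂ y)) ∧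
        WienerRep s q (2 * m * S) ∧
        WienerRep s r (2 ^ s * (2 * m + 1) * ε * (4 * m * (K + S)) * (2 * m))) := by
  have hχc := hasCompactSupport_of_zero hχ0
  have hχ' : ContDiff ℝ ∞ (fun x => conj (χ x)) := contDiff_conj hχ
  have hχ0' : ∀ x, ρ1 < ‖x‖ → (fun x => conj (χ x)) x = 0 := by
    intro x hx
    show conj (χ x) = 0
    rw [hχ0 x hx, map_zero]
  have hχc' := hasCompactSupport_of_zero hχ0'
  obtain ⟨n, C0, hC0, hn, H⟩ := interior_LL d s h1 h12
  obtain ⟨C1, hC1, H1⟩ := cut_bound n hχ hχc hχ0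
  obtain ⟨C2, hC2, H2⟩ := cut_bound n hχ' hχc' hχ0'
  refine ⟨n + 1, 2 * (C0 * (C1 + C2)), by positivity, ?_⟩
  intro m w lam Q f g e₁ e₂ A ε T S A0 hm hlam hA hT hf hg hV1' hV2' hV3' hT1' hT2' hS1 hS2 hL1
    hL2 ht1 ht2 hsmall K hK
  have hV1 := DB_lower hV1'
  have hV2 := DB_lower hV2'
  have hV3 := DB_lower hV3'
  have hT1 := DB_lower hT1'
  have hT2 := DB_lower hT2'
  have hm0 : (1 : ℝ) ≤ m := by exact_mod_cast hm
  have hA0 : 0 ≤ A := by linarith
  have h2s : (2 : WithTop ℕ∞) ≤ (s : WithTop ℕ∞) := by exact_mod_cast hs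
  have hf2 : ContDiff ℝ 2 f := (WienerRep.contDiff hf).of_le h2s
  have hg2 : ContDiff ℝ 2 g := (WienerRep.contDiff hg).of_le h2s
  have haa : aa m = 1 / (2 * (m : ℝ)) := rfl
  have haa0 : 0 < aa m := by rw [haa]; positivity
  have haa1 : |aa m| ≤ 1 := by
    rw [abs_of_pos haa0, haa, div_le_one (by positivity)]
    linarith
  set Iint : ℝ := ∫ x in closedBall (0 : E d) ρ2, (‖f x‖ + ‖g x‖) with hIint
  have hI0 : 0 ≤ Iint := integral_nonneg fun x => by positivity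
  have hIT : 0 ≤ Iint + T := by positivity
  set Y : ℝ := (‖lam‖ + |w| + |aa m| + m + 1) * A with hY
  set Z : ℝ := (‖lam‖ + |w| + m + 2) * A with hZ
  have hYZ : Y ≤ Z := by
    rw [hY, hZ]
    exact mul_le_mul_of_nonneg_right (by linarith) hA0
  have hY0 : 0 ≤ Y := by rw [hY]; positivity
  have hZ0 : 0 ≤ Z := by rw [hZ]; positivity
  set C3 : ℝ := C1 + C2 with hC3
  set K0 : ℝ := C0 * (C3 * A) * Y ^ n * (Iint + T) with hK0
  have hK00 : 0 ≤ K0 := by rw [hK0]; positivity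
  -- localised products
  have Hq : ∀ q : E d → ℂ, ContDiff ℝ n q → (∀ x, ρ1 < ‖x‖ → q x = 0) →
      (∀ i ≤ n, ∀ x, ‖iteratedFDeriv ℝ i q x‖ ≤ C3 * A) →
      WienerRep s (fun x => q x * f x) K0 ∧ WienerRep s (fun x => q x * g x) K0 := by
    intro q hq hq0 hqb
    exact H m w lam Q f g e₁ e₂ A T hA hT hf2 hg2 hV1 hV2 hV3 hT1 hT2 (fun x _ => hL1 x)
      (fun x _ => hL2 x) q (C3 * A) (by positivity) hq hq0 hqb
  have hball : ∀ {V : E d → ℂ}, DB n ρ2 A V → ∀ i ≤ n, ∀ x, ‖x‖ ≤ ρ1 →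
      ‖iteratedFDeriv ℝ i V x‖ ≤ A := fun hV i hi x hx => hV.2 i hi x (by linarith)
  have Hχ : ∀ {V : E d → ℂ}, DB n ρ2 A V →
      WienerRep s (fun x => (χ x * V x) * f x) K0 ∧
      WienerRep s (fun x => (χ x * V x) * g x) K0 := by
    intro V hV
    obtain ⟨a1, a2⟩ := H1 V A hA0 hV.1 (hball hV)
    apply Hq _ a1 (fun x hx => by rw [hχ0 x hx, zero_mul])
    intro i hi x
    refine (a2 i hi x).trans ?_
    rw [hC3]
    gcongr
    linarith
  have Hχ' : ∀ {V : E d → ℂ}, DB n ρ2 A V →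
      WienerRep s (fun x => (conj (χ x) * V x) * f x) K0 ∧
      WienerRep s (fun x => (conj (χ x) * V x) * g x) K0 := by
    intro V hV
    obtain ⟨a1, a2⟩ := H2 V A hA0 hV.1 (hball hV)
    apply Hq _ a1 (fun x hx => by
      have := hχ0' x hx
      simp only at this
      rw [this, zero_mul])
    intro i hi x
    refine (a2 i hi x).trans ?_
    rw [hC3]
    gcongr
    linarith
  obtain ⟨b1f, b1g⟩ := Hχ hV1
  obtain ⟨b2f, b2g⟩ := Hχ hV2
  obtain ⟨c1f, c1g⟩ := Hχ' hV1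
  obtain ⟨c3f, c3g⟩ := Hχ' hV3
  set V₁ : E d → ℂ := fun x => W1 m (Q x) with hV₁
  set V₂ : E d → ℂ := fun x => W2 m (Q x) with hV₂
  have nm1 : ‖-I * ((m : ℂ) + 1)‖ = (m : ℝ) + 1 := by
    rw [norm_mul, norm_neg, Complex.norm_I, one_mul]
    have : ((m : ℂ) + 1) = ((m + 1 : ℕ) : ℂ) := by push_cast; ring
    rw [this, Complex.norm_natCast]
    push_cast; ring
  have nm2 : ‖-I * (m : ℂ)‖ = (m : ℝ) := by
    rw [norm_mul, norm_neg, Complex.norm_I, one_mul, Complex.norm_natCast]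
  -- bound of the localised sources
  have hKB : (2 * m + 1) * K0 ≤ K := by
    rw [hK, hK0]
    have e1 : (2 * (m : ℝ) + 1) * A ≤ 2 * Z := by
      rw [hZ]
      have : (2 * (m : ℝ) + 1) ≤ 2 * (‖lam‖ + |w| + m + 2) := by
        linarith [norm_nonneg lam, abs_nonneg w]
      nlinarith
    calc (2 * (m : ℝ) + 1) * (C0 * (C3 * A) * Y ^ n * (Iint + T))
        = C0 * C3 * Y ^ n * (Iint + T) * ((2 * (m : ℝ) + 1) * A) := by ring
      _ ≤ C0 * C3 * Z ^ n * (Iint + T) * (2 * Z) := by gcongr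
      _ = 2 * (C0 * C3) * Z ^ (n + 1) * (Iint + T) := by rw [pow_succ]; ring
  have hc₁ : WienerRep s (fun y => χ y * Hf m V₁ V₂ f (fun x => conj (g x)) y) K := by
    have a3 := WienerRep.add' (WienerRep.const_mul b1f (-I * ((m : ℂ) + 1)))
      (WienerRep.const_mul b2g (-I * (m : ℂ)))
    rw [nm1, nm2] at a3
    have e : (fun x => -I * ((m : ℂ) + 1) * (χ x * V₁ x * f x) +
        -I * (m : ℂ) * (χ x * V₂ x * g x)) =
        fun y => χ y * Hf m V₁ V₂ f (fun x => conj (g x)) y := by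
      ext y
      unfold Hf
      simp only [Complex.conj_conj]
      ring
    rw [e] at a3
    exact WienerRep.mono a3 (le_trans (le_of_eq (by ring)) hKB)
  have hc₂ : WienerRep s (fun y => χ y * Hf m V₁ V₂ (fun x => conj (g x)) f y) K := by
    have a3 := WienerRep.add' (WienerRep.const_mul (WienerRep.conj c1g) (-I * ((m : ℂ) + 1)))
      (WienerRep.const_mul (WienerRep.conj c3f) (-I * (m : ℂ)))
    rw [nm1, nm2] at a3
    have e : (fun x => -I * ((m : ℂ) + 1) * conj (conj (χ x) * V₁ x * g x) +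
        -I * (m : ℂ) * conj (conj (χ x) * conj (V₂ x) * f x)) =
        fun y => χ y * Hf m V₁ V₂ (fun x => conj (g x)) f y := by
      ext y
      unfold Hf
      have hr : conj (V₁ y) = V₁ y := W1_real _
      simp only [map_mul, Complex.conj_conj, hr]
      ring
    rw [e] at a3
    exact WienerRep.mono a3 (le_trans (le_of_eq (by ring)) hKB)
  obtain ⟨eq₁, eq₂⟩ := eq_of_LL hL1 hL2
  have hk₁ : aa m ≤ (lam + (aa m : ℂ) - I * (w : ℂ)).re := by
    simp only [Complex.sub_re, Complex.add_re, Complex.ofReal_re, Complex.mul_re, Complex.I_re,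
      Complex.I_im, Complex.ofReal_im, zero_mul, one_mul, sub_zero]
    linarith
  have hk₂ : aa m ≤ (conj lam + (aa m : ℂ) - I * (w : ℂ)).re := by
    simp only [Complex.sub_re, Complex.add_re, Complex.ofReal_re, Complex.mul_re, Complex.I_re,
      Complex.I_im, Complex.ofReal_im, zero_mul, one_mul, sub_zero, Complex.conj_re]
    linarith
  have hS1' : WienerRep s (fun y => -e₁ y) S := by
    have := WienerRep.const_mul hS1 (-1)
    simpa using this
  have hS2' : WienerRep s (fun y => -conj (e₂ y)) S := by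
    have := WienerRep.const_mul (WienerRep.conj hS2) (-1)
    simpa using this
  have hgc : WienerRep s (fun x => conj (g x)) A0 := WienerRep.conj hg
  obtain ⟨hfb, hgb⟩ := closing_bound (resBd hs) haa0 hk₁ hk₂ hf hgc ht1 ht2 hS1' hS2' hc₁ hc₂
    eq₁ eq₂ hsmall
  have hconst : 2 * (K + S) / aa m = 4 * m * (K + S) := by
    rw [haa]
    field_simp
    ring
  have hdiv : ∀ x : ℝ, x / aa m = 2 * m * x := by
    intro x
    rw [haa]
    field_simp
  rw [hconst] at hfb hgb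
  refine ⟨hfb, ?_, ?_, ?_⟩
  · have := WienerRep.conj hgb
    simpa using this
  · obtain ⟨p, q, r, e, ep, hp, eq, hq, er, hr⟩ := representation hs (resEx hs) (resBd hs) haa0 hk₁
      hfb hgb ht1 ht2 hS1' hc₁ eq₁
    refine ⟨p, q, r, e, ep, ?_, eq, ?_, ?_⟩
    · rw [← hdiv]; exact hp
    · rw [← hdiv]; exact hq
    · rw [hdiv] at hr
      exact WienerRep.mono hr (le_of_eq (by ring))
  · obtain ⟨p, q, r, e, ep, hp, eq, hq, er, hr⟩ := representation hs (resEx hs) (resBd hs) haa0 hk₂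
      hgb hfb ht1 ht2 hS2' hc₂ eq₂
    refine ⟨p, q, r, e, ep, ?_, eq, ?_, ?_⟩
    · rw [← hdiv]; exact hp
    · rw [← hdiv]; exact hq
    · rw [hdiv] at hr
      exact WienerRep.mono hr (le_of_eq (by ring))

end Vale.Agent.P139.H744
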